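import Mathlib
import Vale.Agent.P092.L.H553.Defs

/-!
P092 (helper132), block T1 of helper553's plan: geometry of the gap functions.
-/

namespace Vale.Agent.P092.L.H132

open Vale.Agent.P092.L.H553
open Vale.Agent.P092.H553 (hs)
variable {G3 : Type} [Group G3] [Emb G3]

open Vale.Agent.P092.L.H553 Matrix

/-- Real `3 × 3` matrices. -/
abbrev M3 : Type := Matrix (Fin 3) (Fin 3) ℝ



lemma hs_nonneg (m : M3) : 0 ≤ hs m :=
  Finset.sum_nonneg fun _ _ => Finset.sum_nonneg fun _ _ => sq_nonneg _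

lemma hs_transpose (m : M3) : hs mᵀ = hs m := by
  unfold hs
  rw [Finset.sum_comm]
  rfl

/-- Cayley-Hamilton, row by row. -/
lemma key_row (H : M3) (q : Fin 3 → ℝ) :
    hs H * ∑ j, (∑ k, q k * H k j) ^ 2 =
      hs H.adjugate * ∑ k, q k ^ 2 - ∑ j, (∑ k, q k * H.adjugate j k) ^ 2
        + ∑ j, (∑ k, q k * (∑ l, H k l * H j l)) ^ 2 := by
  rw [Matrix.adjugate_fin_three]
  simp only [hs, Fin.sum_univ_three, Matrix.of_apply, Matrix.cons_val', Matrix.cons_val_zero,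
    Matrix.cons_val_one, Matrix.cons_val_two, Matrix.head_cons, Matrix.tail_cons,
    Matrix.cons_val_fin_one, Matrix.empty_val', Matrix.head_fin_const]
  ring

lemma key (H Q : M3) :
    hs H * hs (Q * H) = hs H.adjugate * hs Q - hs (Q * H.adjugateᵀ) + hs (Q * (H * Hᵀ)) := by
  have h1 : hs (Q * H) = ∑ i, ∑ j, (∑ k, Q i k * H k j) ^ 2 := by
    simp only [hs, Matrix.mul_apply]
  have h2 : hs (Q * H.adjugateᵀ) = ∑ i, ∑ j, (∑ k, Q i k * H.adjugate j k) ^ 2 := by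
    simp only [hs, Matrix.mul_apply, Matrix.transpose_apply]
  have h3 : hs (Q * (H * Hᵀ)) = ∑ i, ∑ j, (∑ k, Q i k * (∑ l, H k l * H j l)) ^ 2 := by
    simp only [hs, Matrix.mul_apply, Matrix.transpose_apply]
  rw [h1, h2, h3]
  have h4 : hs Q = ∑ i, ∑ k, Q i k ^ 2 := rfl
  rw [h4, Finset.mul_sum, Finset.mul_sum, ← Finset.sum_sub_distrib, ← Finset.sum_add_distrib]
  exact Finset.sum_congr rfl fun i _ => key_row H (Q i)

/-- Submultiplicativity of the Hilbert-Schmidt norm. -/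
lemma hs_mul_le (M N : M3) : hs (M * N) ≤ hs M * hs N := by
  have h : ∀ i j, (∑ k, M i k * N k j) ^ 2 ≤ (∑ k, M i k ^ 2) * (∑ k, N k j ^ 2) :=
    fun i j => Finset.sum_mul_sq_le_sq_mul_sq _ _ _
  calc hs (M * N) = ∑ i, ∑ j, (∑ k, M i k * N k j) ^ 2 := by simp only [hs, Matrix.mul_apply]
    _ ≤ ∑ i, ∑ j, (∑ k, M i k ^ 2) * (∑ k, N k j ^ 2) :=
        Finset.sum_le_sum fun i _ => Finset.sum_le_sum fun j _ => h i j
    _ = hs M * hs N := by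
        simp only [hs]
        rw [Finset.sum_comm (f := fun i j => N i j ^ 2), Finset.sum_mul]
        exact Finset.sum_congr rfl fun i _ => (Finset.mul_sum _ _ _).symm

lemma hs_smul (c : ℝ) (m : M3) : hs (c • m) = c ^ 2 * hs m := by
  simp only [hs, Matrix.smul_apply, smul_eq_mul, mul_pow, Finset.mul_sum]

lemma rA_pos (g : G3) : 0 < rA g := by
  have h0 : 0 ≤ rA g := hs_nonneg _
  rcases h0.lt_or_eq with h | h
  · exact h
  · exfalso
    have hz : ∀ i j, rm g i j = 0 := by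
      intro i j
      have h1 : ∑ i, ∑ j, rm g i j ^ 2 = 0 := h.symm
      have h2 := (Finset.sum_eq_zero_iff_of_nonneg
        (fun i _ => Finset.sum_nonneg fun j _ => sq_nonneg (rm g i j))).1 h1 i (Finset.mem_univ _)
      have h3 := (Finset.sum_eq_zero_iff_of_nonneg
        (fun j _ => sq_nonneg (rm g i j))).1 h2 j (Finset.mem_univ _)
      exact pow_eq_zero_iff (two_ne_zero) |>.1 h3
    have hg : rm g = 0 := by
      ext i j
      exact hz i j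
    have hd := rm_det g
    rw [hg, Matrix.det_zero] at hd
    exact zero_ne_one hd

lemma rB_pos (g : G3) : 0 < rB g := rA_pos g⁻¹

lemma rB_eq (g : G3) : rB g = hs (rm g).adjugate := by rw [rB, rm_inv]

lemma rB_inv (g : G3) : rB g⁻¹ = rA g := by rw [rB, inv_inv, rA]

lemma rA_inv (g : G3) : rA g⁻¹ = rB g := rfl

lemma rA_mul_le (g h : G3) : rA (g * h) ≤ rA g * rA h := by
  rw [rA, rm_mul]; exact hs_mul_le _ _

/-- `3 B ≤ A²`. -/
lemma three_rB_le (g : G3) : 3 * rB g ≤ rA g ^ 2 := by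
  rw [rB_eq, rA]
  have : hs (rm g) ^ 2 - 3 * hs (rm g).adjugate =
      (∑ i, ∑ j, (∑ k, rm g i k * rm g j k - if i = j then hs (rm g) / 3 else 0) ^ 2) * (3 / 2) := by
    rw [Matrix.adjugate_fin_three]
    simp only [hs, Fin.sum_univ_three, Matrix.of_apply, Matrix.cons_val', Matrix.cons_val_zero,
      Matrix.cons_val_one, Matrix.cons_val_two, Matrix.head_cons, Matrix.tail_cons,
      Matrix.cons_val_fin_one, Matrix.empty_val', Matrix.head_fin_const]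
    simp only [Fin.isValue, if_true, if_false, Fin.reduceEq]
    ring
  have h2 : 0 ≤ (∑ i, ∑ j, (∑ k, rm g i k * rm g j k - if i = j then hs (rm g) / 3 else 0) ^ 2)
      * (3 / 2 : ℝ) :=
    mul_nonneg (Finset.sum_nonneg fun _ _ => Finset.sum_nonneg fun _ _ => sq_nonneg _) (by norm_num)
  linarith

lemma G12_ge (g : G3) : 3 ≤ G12 g := by
  rw [G12, le_div_iff₀ (rB_pos g)]; exact three_rB_le g

lemma G23_ge (g : G3) : 3 ≤ G23 g := by
  have := G12_ge g⁻¹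
  rwa [G12, rA_inv, rB_inv] at this

/-- Gram matrices and the Hilbert-Schmidt norm. -/
lemma ip_gram (K L : M3) : ∑ j, ∑ k, (Kᵀ * K) j k * (Lᵀ * L) j k = hs (K * Lᵀ) := by
  simp only [hs, Matrix.mul_apply, Matrix.transpose_apply, Fin.sum_univ_three]
  ring

lemma hs_gram_le (K : M3) : hs (Kᵀ * K) ≤ hs K ^ 2 := by
  have := hs_mul_le Kᵀ K
  rw [hs_transpose] at this
  rwa [sq]

lemma hs_sub (M N : M3) : hs (M - N) = hs M + hs N - 2 * ∑ j, ∑ k, M j k * N j k := by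
  simp only [hs, Matrix.sub_apply, Fin.sum_univ_three]
  ring

lemma hs_sub_le (M N : M3) : hs (M - N) ≤ 2 * hs M + 2 * hs N := by
  have h : ∀ i j, (M i j - N i j) ^ 2 ≤ 2 * M i j ^ 2 + 2 * N i j ^ 2 := by
    intro i j; nlinarith [sq_nonneg (M i j + N i j)]
  calc hs (M - N) = ∑ i, ∑ j, (M i j - N i j) ^ 2 := by simp only [hs, Matrix.sub_apply]
    _ ≤ ∑ i, ∑ j, (2 * M i j ^ 2 + 2 * N i j ^ 2) :=
        Finset.sum_le_sum fun i _ => Finset.sum_le_sum fun j _ => h i j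
    _ = 2 * hs M + 2 * hs N := by
        simp only [hs, Finset.sum_add_distrib, Finset.mul_sum]

lemma hs_NS_le (k : G3) : hs (NS k) ≤ 1 := by
  have hB := rB_pos k
  rw [NS, hs_smul]
  have h := hs_gram_le (rm k⁻¹)
  have h2 : hs (rm k⁻¹) = rB k := rfl
  rw [h2] at h
  calc (rB k)⁻¹ ^ 2 * hs ((rm k⁻¹)ᵀ * rm k⁻¹) ≤ (rB k)⁻¹ ^ 2 * rB k ^ 2 :=
        mul_le_mul_of_nonneg_left h (sq_nonneg _)
    _ = 1 := by field_simp

/-- `⟨N*(k), QᵀQ⟩ = ‖Q k⁻ᵀ‖² / B(k)`. -/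
lemma ip_NS (k : G3) (Q : M3) :
    ∑ i, ∑ j, NS k i j * (Qᵀ * Q) i j = hs (Q * (rm k⁻¹)ᵀ) / rB k := by
  have h := ip_gram (rm k⁻¹) Q
  have h2 : hs (rm k⁻¹ * Qᵀ) = hs (Q * (rm k⁻¹)ᵀ) := by
    rw [← hs_transpose, Matrix.transpose_mul, Matrix.transpose_transpose]
  rw [h2] at h
  rw [← h]
  simp only [NS, Matrix.smul_apply, smul_eq_mul, mul_assoc]
  rw [div_eq_inv_mul, Finset.mul_sum]
  exact Finset.sum_congr rfl fun i _ => by rw [Finset.mul_sum]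

lemma ip_NS_le (k : G3) (Q : M3) :
    ∑ i, ∑ j, NS k i j * (Qᵀ * Q) i j ≤ hs Q := by
  rw [ip_NS, div_le_iff₀ (rB_pos k)]
  have := hs_mul_le Q (rm k⁻¹)ᵀ
  rwa [hs_transpose] at this

lemma key_le (h : G3) (Q : M3) :
    rB h * (hs Q - ∑ i, ∑ j, NS h i j * (Qᵀ * Q) i j) ≤ rA h * hs (Q * rm h) := by
  have h1 := key (rm h) Q
  have h2 : 0 ≤ hs (Q * (rm h * (rm h)ᵀ)) := hs_nonneg _
  rw [← rB_eq, ← rm_inv] at h1
  have h3 : hs (rm h) = rA h := rfl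
  rw [h3] at h1
  rw [ip_NS, mul_sub, mul_div_cancel₀ _ (rB_pos h).ne']
  linarith

/-- Lower bound for `A(k⁻¹ h)` when `N*(k)` and `N*(h)` are far apart. -/
lemma rA_inv_mul_ge {R0 δ : ℝ} (hR : 1 ≤ R0) (k h : G3) (hh : G12 h ≤ R0)
    (hd : δ ^ 2 ≤ hs (NS k - NS h)) :
    δ ^ 2 / (2 * R0) * (rB k * rA h) ≤ rA (k⁻¹ * h) := by
  have hAh := rA_pos h
  have hBh := rB_pos h
  have hBk := rB_pos k
  have h1 := key_le h (rm k⁻¹)
  have h2 : hs (rm k⁻¹) = rB k := rfl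
  have h3 : hs (rm k⁻¹ * rm h) = rA (k⁻¹ * h) := by rw [rA, rm_mul]
  rw [h2, h3] at h1
  have h4 : ∑ i, ∑ j, NS h i j * ((rm k⁻¹)ᵀ * rm k⁻¹) i j
      = rB k * ∑ i, ∑ j, NS k i j * NS h i j := by
    rw [Finset.mul_sum]
    refine Finset.sum_congr rfl fun i _ => ?_
    rw [Finset.mul_sum]
    refine Finset.sum_congr rfl fun j _ => ?_
    have : NS k i j = (rB k)⁻¹ * ((rm k⁻¹)ᵀ * rm k⁻¹) i j := by
      simp only [NS, Matrix.smul_apply, smul_eq_mul]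
    rw [this]; field_simp
  rw [h4] at h1
  rw [hs_sub] at hd
  have h5 := hs_NS_le k
  have h6 := hs_NS_le h
  have h7 : δ ^ 2 / 2 ≤ 1 - ∑ i, ∑ j, NS k i j * NS h i j := by linarith
  have h8 : rB h * rB k * (δ ^ 2 / 2) ≤ rA h * rA (k⁻¹ * h) := by
    have : rB h * rB k * (δ ^ 2 / 2) ≤ rB h * rB k * (1 - ∑ i, ∑ j, NS k i j * NS h i j) :=
      mul_le_mul_of_nonneg_left h7 (by positivity)
    linarith
  rw [G12, div_le_iff₀ hBh] at hh
  have hR0 : 0 < R0 := by linarith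
  -- `A(h)² ≤ R0 B(h)`
  have h9 : rA h * (δ ^ 2 / (2 * R0) * (rB k * rA h)) ≤ rA h * rA (k⁻¹ * h) := by
    calc rA h * (δ ^ 2 / (2 * R0) * (rB k * rA h)) = δ ^ 2 / (2 * R0) * rB k * rA h ^ 2 := by ring
      _ ≤ δ ^ 2 / (2 * R0) * rB k * (R0 * rB h) := mul_le_mul_of_nonneg_left hh (by positivity)
      _ = rB h * rB k * (δ ^ 2 / 2) := by field_simp
      _ ≤ _ := h8
  exact le_of_mul_le_mul_left h9 hAh

lemma rB_inv_mul_ge {R0 δ : ℝ} (hR : 1 ≤ R0) (k h : G3) (hk : G12 k ≤ R0)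
    (hd : δ ^ 2 ≤ hs (NS k - NS h)) :
    δ ^ 2 / (2 * R0) * (rB h * rA k) ≤ rB (k⁻¹ * h) := by
  have hd' : δ ^ 2 ≤ hs (NS h - NS k) := by
    have : hs (NS h - NS k) = hs (NS k - NS h) := by
      simp only [hs, Matrix.sub_apply]
      exact Finset.sum_congr rfl fun i _ => Finset.sum_congr rfl fun j _ => by ring
    rwa [this]
  have := rA_inv_mul_ge hR h k hk hd'
  rwa [show rA (h⁻¹ * k) = rB (k⁻¹ * h) by
    rw [← rA_inv, _root_.mul_inv_rev, inv_inv]] at this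

lemma rA_inv_mul_le (k h : G3) : rA (k⁻¹ * h) ≤ rB k * rA h := rA_mul_le _ _

lemma rB_inv_mul_le (k h : G3) : rB (k⁻¹ * h) ≤ rB h * rA k := by
  have := rA_mul_le h⁻¹ k
  rwa [rA_inv, show rA (h⁻¹ * k) = rB (k⁻¹ * h) by
    rw [← rA_inv, _root_.mul_inv_rev, inv_inv]] at this

/-- T1, first part. -/
theorem gap_lower {R0 δ : ℝ} (hR : 1 ≤ R0) (hδ : 0 < δ) (k h : G3) (hk : G12 k ≤ R0)
    (hh : G12 h ≤ R0) (hd : δ ^ 2 ≤ hs (NS k - NS h)) :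
    (δ ^ 2 / (2 * R0)) ^ 2 * G23 k ≤ G12 (k⁻¹ * h) ∧
      (δ ^ 2 / (2 * R0)) ^ 2 * G23 h ≤ G23 (k⁻¹ * h) := by
  have hR0 : 0 < R0 := by linarith
  have hc : 0 < δ ^ 2 / (2 * R0) := by positivity
  have a1 := rA_inv_mul_ge hR k h hh hd
  have a2 := rB_inv_mul_ge hR k h hk hd
  have a3 := rA_inv_mul_le k h
  have a4 := rB_inv_mul_le k h
  have hAk := rA_pos k
  have hBk := rB_pos k
  have hAh := rA_pos h
  have hBh := rB_pos h
  have hAw := rA_pos (k⁻¹ * h)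
  have hBw := rB_pos (k⁻¹ * h)
  have g1 : rB h ≤ rA h ^ 2 := by linarith [three_rB_le h]
  have g2 : rB k ≤ rA k ^ 2 := by linarith [three_rB_le k]
  unfold G12 G23
  generalize δ ^ 2 / (2 * R0) = c at *
  generalize rA (k⁻¹ * h) = α at *
  generalize rB (k⁻¹ * h) = β at *
  generalize rA k = a at *
  generalize rB k = b at *
  generalize rA h = a' at *
  generalize rB h = b' at *
  constructor
  · rw [le_div_iff₀ hBw]
    calc c ^ 2 * (b ^ 2 / a) * β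
        ≤ c ^ 2 * (b ^ 2 / a) * (b' * a) :=
          mul_le_mul_of_nonneg_left a4 (by positivity)
      _ = c ^ 2 * b ^ 2 * b' := by field_simp
      _ ≤ c ^ 2 * b ^ 2 * a' ^ 2 := mul_le_mul_of_nonneg_left g1 (by positivity)
      _ = (c * (b * a')) ^ 2 := by ring
      _ ≤ α ^ 2 := pow_le_pow_left₀ (by positivity) a1 2
  · rw [le_div_iff₀ hAw]
    calc c ^ 2 * (b' ^ 2 / a') * α
        ≤ c ^ 2 * (b' ^ 2 / a') * (b * a') :=
          mul_le_mul_of_nonneg_left a3 (by positivity)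
      _ = c ^ 2 * b' ^ 2 * b := by field_simp
      _ ≤ c ^ 2 * b' ^ 2 * a ^ 2 := mul_le_mul_of_nonneg_left g2 (by positivity)
      _ = (c * (b' * a)) ^ 2 := by ring
      _ ≤ β ^ 2 := pow_le_pow_left₀ (by positivity) a2 2

/-- If `N*(k)`, `N*(h)` are far apart, `N*(k) + N*(h)` is uniformly less than `2`. -/
lemma ip_sum_le {δ : ℝ} (k h : G3) (hd : δ ^ 2 ≤ hs (NS k - NS h)) (Q : M3) (hQ : 0 < hs Q) :
    (∑ i, ∑ j, NS k i j * (Qᵀ * Q) i j) + (∑ i, ∑ j, NS h i j * (Qᵀ * Q) i j)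
      ≤ (2 - δ ^ 2 / 4) * hs Q := by
  set n := hs Q with hn
  set P := Qᵀ * Q with hP
  have hPn : hs P ≤ n ^ 2 := hs_gram_le Q
  have e : ∀ g : G3, hs (n • NS g - P) ≤ 2 * n ^ 2 - 2 * n * ∑ i, ∑ j, NS g i j * P i j := by
    intro g
    rw [hs_sub (n • NS g) P, hs_smul]
    have h1 : ∑ j, ∑ k, (n • NS g) j k * P j k = n * ∑ i, ∑ j, NS g i j * P i j := by
      rw [Finset.mul_sum]
      refine Finset.sum_congr rfl fun i _ => ?_
      rw [Finset.mul_sum]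
      exact Finset.sum_congr rfl fun j _ => by
        simp only [Matrix.smul_apply, smul_eq_mul]; ring
    rw [h1]
    have h2 : n ^ 2 * hs (NS g) ≤ n ^ 2 * 1 :=
      mul_le_mul_of_nonneg_left (hs_NS_le g) (sq_nonneg _)
    linarith
  have h3 : n ^ 2 * hs (NS k - NS h) ≤ 2 * hs (n • NS k - P) + 2 * hs (n • NS h - P) := by
    have e3 : n • (NS k - NS h) = (n • NS k - P) - (n • NS h - P) := by
      rw [smul_sub, sub_sub_sub_cancel_right]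
    have e4 := hs_sub_le (n • NS k - P) (n • NS h - P)
    rw [← e3, hs_smul] at e4
    exact e4
  have h4 : n ^ 2 * δ ^ 2 ≤ n ^ 2 * hs (NS k - NS h) :=
    mul_le_mul_of_nonneg_left hd (sq_nonneg _)
  have h5 := e k
  have h6 := e h
  have h3' : n ^ 2 * hs (NS k - NS h) ≤
      2 * (2 * n ^ 2 - 2 * n * ∑ i, ∑ j, NS k i j * P i j) +
      2 * (2 * n ^ 2 - 2 * n * ∑ i, ∑ j, NS h i j * P i j) := by linarith
  generalize (∑ i, ∑ j, NS k i j * P i j) = a at h3' ⊢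
  generalize (∑ i, ∑ j, NS h i j * P i j) = b at h3' ⊢
  have h7 : n * (a + b) ≤ n * ((2 - δ ^ 2 / 4) * n) := by
    have e1 : n * (a + b) = n * a + n * b := by ring
    have e2 : n * ((2 - δ ^ 2 / 4) * n) = 2 * n ^ 2 - (n ^ 2 * δ ^ 2) / 4 := by ring
    rw [e1, e2]
    linarith
  exact le_of_mul_le_mul_left h7 hQ

lemma rA_mul_div_ge {R0 : ℝ} (hR : 1 ≤ R0) (u k : G3) (hk : G12 k ≤ R0) :
    (rA u - ∑ i, ∑ j, NS k i j * ((rm u)ᵀ * rm u) i j) / R0 ≤ rA (u * k) / rA k := by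
  have h1 := key_le k (rm u)
  have h2 : hs (rm u) = rA u := rfl
  have h3 : hs (rm u * rm k) = rA (u * k) := by rw [rA, rm_mul]
  have h4 := ip_NS_le k (rm u)
  rw [h2] at h4
  rw [h2, h3] at h1
  have hAk := rA_pos k
  have hBk := rB_pos k
  have hR0 : 0 < R0 := by linarith
  rw [G12, div_le_iff₀ hBk] at hk
  rw [div_le_div_iff₀ hR0 hAk]
  set t := rA u - ∑ i, ∑ j, NS k i j * ((rm u)ᵀ * rm u) i j with ht
  have ht0 : 0 ≤ t := by linarith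
  have h5 : rA k * (t * rA k) ≤ rA k * (rA (u * k) * R0) := by
    calc rA k * (t * rA k) = t * rA k ^ 2 := by ring
      _ ≤ t * (R0 * rB k) := mul_le_mul_of_nonneg_left hk ht0
      _ = R0 * (rB k * t) := by ring
      _ ≤ R0 * (rA k * rA (u * k)) := mul_le_mul_of_nonneg_left h1 hR0.le
      _ = _ := by ring
  exact le_of_mul_le_mul_left h5 hAk

/-- Bounds of `G12 (k⁻¹ h)` by `A(k)³`. -/
lemma G12_inv_mul_ge {R0 δ : ℝ} (hR : 1 ≤ R0) (hδ : 0 < δ) (k h : G3) (hk : G12 k ≤ R0)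
    (hh : G12 h ≤ R0) (hd : δ ^ 2 ≤ hs (NS k - NS h)) :
    3 * (δ ^ 2 / (2 * R0)) ^ 2 * rA k ^ 3 / R0 ^ 2 ≤ G12 (k⁻¹ * h) := by
  have hR0 : 0 < R0 := by linarith
  have hc : 0 < δ ^ 2 / (2 * R0) := by positivity
  have a1 := rA_inv_mul_ge hR k h hh hd
  have a4 := rB_inv_mul_le k h
  set c := δ ^ 2 / (2 * R0) with hcdef
  have hAk := rA_pos k
  have hBk := rB_pos k
  have hAh := rA_pos h
  have hBh := rB_pos h
  have hBw := rB_pos (k⁻¹ * h)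
  have g1 := three_rB_le h
  rw [G12, div_le_iff₀ hBk] at hk
  rw [G12, le_div_iff₀ hBw, div_mul_eq_mul_div, div_le_iff₀ (by positivity)]
  calc 3 * c ^ 2 * rA k ^ 3 * rB (k⁻¹ * h) ≤ 3 * c ^ 2 * rA k ^ 3 * (rB h * rA k) :=
        mul_le_mul_of_nonneg_left a4 (by positivity)
    _ = c ^ 2 * (rA k ^ 2) ^ 2 * (3 * rB h) := by ring
    _ ≤ c ^ 2 * (R0 * rB k) ^ 2 * (rA h ^ 2) := by
        apply mul_le_mul _ g1 (by positivity) (by positivity)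
        exact mul_le_mul_of_nonneg_left (pow_le_pow_left₀ (by positivity) hk 2) (by positivity)
    _ = (c * (rB k * rA h)) ^ 2 * R0 ^ 2 := by ring
    _ ≤ rA (k⁻¹ * h) ^ 2 * R0 ^ 2 :=
        mul_le_mul_of_nonneg_right (pow_le_pow_left₀ (by positivity) a1 2) (by positivity)

lemma G12_inv_mul_le {R0 δ : ℝ} (hR : 1 ≤ R0) (hδ : 0 < δ) (k h : G3) (hk : G12 k ≤ R0)
    (hh : G12 h ≤ R0) (hd : δ ^ 2 ≤ hs (NS k - NS h)) :
    G12 (k⁻¹ * h) ≤ R0 * rA k ^ 3 / (9 * (δ ^ 2 / (2 * R0))) := by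
  have hR0 : 0 < R0 := by linarith
  have hc : 0 < δ ^ 2 / (2 * R0) := by positivity
  have a2 := rB_inv_mul_ge hR k h hk hd
  have a3 := rA_inv_mul_le k h
  set c := δ ^ 2 / (2 * R0) with hcdef
  have hAk := rA_pos k
  have hBk := rB_pos k
  have hAh := rA_pos h
  have hBh := rB_pos h
  have hAw := rA_pos (k⁻¹ * h)
  have hBw := rB_pos (k⁻¹ * h)
  have g1 := three_rB_le k
  rw [G12, div_le_iff₀ hBh] at hh
  rw [G12, div_le_div_iff₀ hBw (by positivity)]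
  calc rA (k⁻¹ * h) ^ 2 * (9 * c) ≤ (rB k * rA h) ^ 2 * (9 * c) :=
        mul_le_mul_of_nonneg_right (pow_le_pow_left₀ hAw.le a3 2) (by positivity)
    _ = c * (3 * rB k) ^ 2 * rA h ^ 2 := by ring
    _ ≤ c * (rA k ^ 2) ^ 2 * (R0 * rB h) := by
        apply mul_le_mul _ hh (by positivity) (by positivity)
        exact mul_le_mul_of_nonneg_left (pow_le_pow_left₀ (by positivity) g1 2) hc.le
    _ = R0 * rA k ^ 3 * (c * (rB h * rA k)) := by ring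
    _ ≤ R0 * rA k ^ 3 * rB (k⁻¹ * h) := mul_le_mul_of_nonneg_left a2 (by positivity)

lemma rA_le_of_eq {R0 δ : ℝ} (hR : 1 ≤ R0) (hδ : 0 < δ) (k1 h1 k2 h2 : G3)
    (hk1 : G12 k1 ≤ R0) (hh1 : G12 h1 ≤ R0) (hk2 : G12 k2 ≤ R0) (hh2 : G12 h2 ≤ R0)
    (hd1 : δ ^ 2 ≤ hs (NS k1 - NS h1)) (hd2 : δ ^ 2 ≤ hs (NS k2 - NS h2))
    (he : k1⁻¹ * h1 = k2⁻¹ * h2) :
    rA k2 ≤ R0 / (3 * (δ ^ 2 / (2 * R0))) * rA k1 := by
  have hR0 : 0 < R0 := by linarith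
  have hc : 0 < δ ^ 2 / (2 * R0) := by positivity
  have b1 := G12_inv_mul_le hR hδ k1 h1 hk1 hh1 hd1
  have b2 := G12_inv_mul_ge hR hδ k2 h2 hk2 hh2 hd2
  rw [← he] at b2
  have b3 := b2.trans b1
  set c := δ ^ 2 / (2 * R0) with hcdef
  have hA1 := rA_pos k1
  have hA2 := rA_pos k2
  refine le_of_pow_le_pow_left₀ (n := 3) (by norm_num) (by positivity) ?_
  rw [div_le_div_iff₀ (by positivity) (by positivity)] at b3
  rw [mul_pow, div_pow, div_mul_eq_mul_div, le_div_iff₀ (by positivity)]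
  nlinarith [b3]

/-- T1, second part. -/
theorem gap_finite {R0 δ : ℝ} (hR : 1 ≤ R0) (hδ : 0 < δ) :
    ∃ F : Finset G3, ∀ k1 h1 k2 h2 : G3, G12 k1 ≤ R0 → G12 h1 ≤ R0 → G12 k2 ≤ R0 →
      G12 h2 ≤ R0 → δ ^ 2 ≤ hs (NS k1 - NS h1) → δ ^ 2 ≤ hs (NS k2 - NS h2) →
      k1⁻¹ * h1 = k2⁻¹ * h2 → k2 * k1⁻¹ ∈ F := by
  have hR0 : 0 < R0 := by linarith
  have hc : 0 < δ ^ 2 / (2 * R0) := by positivity
  set C := R0 / (3 * (δ ^ 2 / (2 * R0))) with hC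
  have hCpos : 0 < C := by positivity
  refine ⟨(finite_rA_le (4 / δ ^ 2 * (R0 * (2 * C)))).toFinset, ?_⟩
  intro k1 h1 k2 h2 hk1 hh1 hk2 hh2 hd1 hd2 he
  rw [Set.Finite.mem_toFinset]
  change rA (k2 * k1⁻¹) ≤ _
  set u := k2 * k1⁻¹ with hu
  have huk : u * k1 = k2 := by rw [hu]; group
  have huh : u * h1 = h2 := by
    have : h2 = k2 * (k1⁻¹ * h1) := by rw [he]; group
    rw [this, hu]; group
  have e1 := rA_le_of_eq hR hδ k1 h1 k2 h2 hk1 hh1 hk2 hh2 hd1 hd2 he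
  have symm' : ∀ k h : G3, hs (NS k - NS h) = hs (NS h - NS k) := by
    intro k h
    simp only [hs, Matrix.sub_apply]
    exact Finset.sum_congr rfl fun i _ => Finset.sum_congr rfl fun j _ => by ring
  have he' : h1⁻¹ * k1 = h2⁻¹ * k2 := by
    have := congrArg (fun x => x⁻¹) he
    simpa [_root_.mul_inv_rev] using this
  have e2 := rA_le_of_eq hR hδ h1 k1 h2 k2 hh1 hk1 hh2 hk2 (by rw [symm']; exact hd1)
    (by rw [symm']; exact hd2) he'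
  rw [← hC] at e1 e2
  have f1 := rA_mul_div_ge hR u k1 hk1
  have f2 := rA_mul_div_ge hR u h1 hh1
  rw [huk] at f1
  rw [huh] at f2
  have g1 : rA k2 / rA k1 ≤ C := by rw [div_le_iff₀ (rA_pos k1)]; exact e1
  have g2 : rA h2 / rA h1 ≤ C := by rw [div_le_iff₀ (rA_pos h1)]; exact e2
  have f3 := f1.trans g1
  have f4 := f2.trans g2
  rw [div_le_iff₀ hR0] at f3 f4
  have s := ip_sum_le k1 h1 hd1 (rm u) (rA_pos u)
  have h2' : hs (rm u) = rA u := rfl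
  rw [h2'] at s
  have hfin : δ ^ 2 / 4 * rA u ≤ R0 * (2 * C) := by nlinarith
  rw [show 4 / δ ^ 2 * (R0 * (2 * C)) = (R0 * (2 * C)) / (δ ^ 2 / 4) by field_simp]
  rw [le_div_iff₀ (by positivity)]
  linarith

/-- Block T1. -/
theorem T1 {R0 δ : ℝ} (hR : 1 ≤ R0) (hδ : 0 < δ) :
    (∀ k h : G3, G12 k ≤ R0 → G12 h ≤ R0 → δ ^ 2 ≤ hs (NS k - NS h) →
      (δ ^ 2 / (2 * R0)) ^ 2 * G23 k ≤ G12 (k⁻¹ * h) ∧
        (δ ^ 2 / (2 * R0)) ^ 2 * G23 h ≤ G23 (k⁻¹ * h)) ∧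
    ∃ F : Finset G3, ∀ k1 h1 k2 h2 : G3, G12 k1 ≤ R0 → G12 h1 ≤ R0 → G12 k2 ≤ R0 →
      G12 h2 ≤ R0 → δ ^ 2 ≤ hs (NS k1 - NS h1) → δ ^ 2 ≤ hs (NS k2 - NS h2) →
      k1⁻¹ * h1 = k2⁻¹ * h2 → k2 * k1⁻¹ ∈ F :=
  ⟨fun k h hk hh hd => gap_lower hR hδ k h hk hh hd, gap_finite hR hδ⟩

end Vale.Agent.P092.L.H132
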