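import Mathlib
import Vale.Agent.P092.L.H132.T1

/-!
P092 (helper132): asymptotic right invariance of `N`, `N*` and exact left equivariance.
-/

namespace Vale.Agent.P092.L.H132

open Vale.Agent.P092.L.H553
open Vale.Agent.P092.H553 (hs)
variable {G3 : Type} [Group G3] [Emb G3]

open Vale.Agent.P092.L.H553 Matrix



/-- The cross product of two vectors. -/
def cr (u v : Fin 3 → ℝ) : Fin 3 → ℝ :=
  ![u 1 * v 2 - u 2 * v 1, u 2 * v 0 - u 0 * v 2, u 0 * v 1 - u 1 * v 0]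

lemma cr_lagrange (u v : Fin 3 → ℝ) :
    (∑ a, u a ^ 2) * (∑ a, v a ^ 2) - (∑ a, u a * v a) ^ 2 = ∑ a, cr u v a ^ 2 := by
  simp only [cr, Fin.sum_univ_three, Matrix.cons_val_zero, Matrix.cons_val_one, Matrix.cons_val]
  ring

lemma cr_sum (u : Fin 3 → ℝ) (K : M3) (t : Fin 3 → ℝ) (a : Fin 3) :
    cr u (fun b => ∑ l, t l * K l b) a = ∑ l, t l * cr u (K l) a := by
  fin_cases a <;>
  · simp only [cr, Fin.sum_univ_three, Matrix.cons_val_zero, Matrix.cons_val_one, Matrix.cons_val,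
      Fin.mk_one, Fin.zero_eta, Fin.reduceFinMk]
    ring

lemma sum_cr (K : M3) : ∑ i, ∑ l, ∑ a, cr (K i) (K l) a ^ 2 = 2 * hs K.adjugate := by
  rw [Matrix.adjugate_fin_three]
  simp only [cr, hs, Fin.sum_univ_three, Matrix.of_apply, Matrix.cons_val', Matrix.cons_val_zero,
    Matrix.cons_val_one, Matrix.cons_val_two, Matrix.head_cons, Matrix.tail_cons,
    Matrix.cons_val_fin_one, Matrix.empty_val', Matrix.head_fin_const, Matrix.cons_val]
  ring

lemma lagrange_le (K T : M3) :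
    hs K * hs (T * K) - hs (K * (T * K)ᵀ) ≤ hs T * (2 * hs K.adjugate) := by
  have h1 : hs K * hs (T * K) - hs (K * (T * K)ᵀ) =
      ∑ i, ∑ j, ∑ a, cr (K i) ((T * K) j) a ^ 2 := by
    have e1 : hs K * hs (T * K) = ∑ i, ∑ j, (∑ a, K i a ^ 2) * (∑ a, (T * K) j a ^ 2) := by
      simp only [hs]
      rw [Finset.sum_mul]
      exact Finset.sum_congr rfl fun i _ => Finset.mul_sum _ _ _
    have e2 : hs (K * (T * K)ᵀ) = ∑ i, ∑ j, (∑ a, K i a * (T * K) j a) ^ 2 := by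
      refine Finset.sum_congr rfl fun i _ => Finset.sum_congr rfl fun j _ => ?_
      rw [Matrix.mul_apply]; rfl
    rw [e1, e2, ← Finset.sum_sub_distrib]
    refine Finset.sum_congr rfl fun i _ => ?_
    rw [← Finset.sum_sub_distrib]
    exact Finset.sum_congr rfl fun j _ => cr_lagrange _ _
  rw [h1]
  have h2 : ∀ i j a, cr (K i) ((T * K) j) a ^ 2 ≤
      (∑ l, T j l ^ 2) * (∑ l, cr (K i) (K l) a ^ 2) := by
    intro i j a
    have e : (T * K) j = fun b => ∑ l, T j l * K l b := by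
      funext b; rw [Matrix.mul_apply]
    rw [e, cr_sum]
    exact Finset.sum_mul_sq_le_sq_mul_sq _ _ _
  calc ∑ i, ∑ j, ∑ a, cr (K i) ((T * K) j) a ^ 2
      ≤ ∑ i, ∑ j, ∑ a, (∑ l, T j l ^ 2) * (∑ l, cr (K i) (K l) a ^ 2) :=
        Finset.sum_le_sum fun i _ => Finset.sum_le_sum fun j _ => Finset.sum_le_sum fun a _ =>
          h2 i j a
    _ = hs T * (∑ i, ∑ l, ∑ a, cr (K i) (K l) a ^ 2) := by
        simp only [hs, Fin.sum_univ_three]
        ring
    _ = hs T * (2 * hs K.adjugate) := by rw [sum_cr]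

lemma hs_adj_rm_inv (g : G3) : hs (rm g⁻¹).adjugate = rA g := by
  rw [← rm_inv, inv_inv, rA]

/-- Right invariance of `N*`. -/
theorem hs_NS_sub_mul_le (g t : G3) :
    hs (NS g - NS (g * t)) ≤ 4 * (rA t * rB t) / G23 g := by
  have hB := rB_pos g
  have hBt := rB_pos (g * t)
  have hA := rA_pos g
  have hAt := rA_pos t
  have hBt' := rB_pos t
  have h1 := lagrange_le (rm g⁻¹) (rm t⁻¹)
  have e1 : rm t⁻¹ * rm g⁻¹ = rm (g * t)⁻¹ := by rw [← rm_mul, _root_.mul_inv_rev]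
  rw [e1, hs_adj_rm_inv] at h1
  have e2 : hs (rm g⁻¹) = rB g := rfl
  have e3 : hs (rm (g * t)⁻¹) = rB (g * t) := rfl
  have e4 : hs (rm t⁻¹) = rB t := rfl
  rw [e2, e3, e4] at h1
  -- the scalar product
  have e5 : ∑ i, ∑ j, NS g i j * NS (g * t) i j
      = hs (rm g⁻¹ * (rm (g * t)⁻¹)ᵀ) / (rB g * rB (g * t)) := by
    have := ip_NS (g * t) (rm g⁻¹)
    rw [← div_div, div_right_comm, ← this, Finset.sum_div]
    refine Finset.sum_congr rfl fun i _ => ?_
    rw [Finset.sum_div]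
    refine Finset.sum_congr rfl fun j _ => ?_
    have e6 : NS g i j = (rB g)⁻¹ * ((rm g⁻¹)ᵀ * rm g⁻¹) i j := by
      simp only [NS, Matrix.smul_apply, smul_eq_mul]
    rw [e6, div_eq_inv_mul]; ring
  have h2 : 1 - ∑ i, ∑ j, NS g i j * NS (g * t) i j
      ≤ 2 * (rB t * rA g) / (rB g * rB (g * t)) := by
    rw [e5, le_div_iff₀ (by positivity), sub_mul, div_mul_cancel₀ _ (by positivity)]
    linarith
  -- `B(g) ≤ A(t) B(gt)`
  have h3 : rB g ≤ rA t * rB (g * t) := by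
    have := rA_mul_le t (g * t)⁻¹
    rw [rA_inv] at this
    have e7 : t * (g * t)⁻¹ = g⁻¹ := by group
    rwa [e7, rA_inv] at this
  have h4 : 2 * (rB t * rA g) / (rB g * rB (g * t)) ≤ 2 * (rA t * rB t) / G23 g := by
    have hG : 0 < G23 g := by linarith [G23_ge g]
    rw [div_le_div_iff₀ (by positivity) hG, G23]
    calc 2 * (rB t * rA g) * (rB g ^ 2 / rA g) = 2 * rB t * rB g * rB g := by
          field_simp
      _ ≤ 2 * rB t * rB g * (rA t * rB (g * t)) :=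
          mul_le_mul_of_nonneg_left h3 (by positivity)
      _ = _ := by ring
  have h5 := hs_sub (NS g) (NS (g * t))
  have h6 := hs_NS_le g
  have h7 := hs_NS_le (g * t)
  have h8 : 4 * (rA t * rB t) / G23 g = 2 * (2 * (rA t * rB t) / G23 g) := by ring
  rw [h8]
  linarith

/-- The contragredient homomorphism `g ↦ g⁻ᵀ` (the Cartan involution). -/
abbrev dual (G3 : Type) [Group G3] [Emb G3] : Emb G3 where
  hom :=
    { toFun := fun g => (Emb.hom g⁻¹ : Matrix.SpecialLinearGroup (Fin 3) ℝ).transpose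
      map_one' := by
        ext i j
        simp [Matrix.SpecialLinearGroup.transpose, Matrix.one_apply, eq_comm]
      map_mul' := fun g h => by
        apply Subtype.ext
        change ((Emb.hom (g * h)⁻¹ : Matrix.SpecialLinearGroup (Fin 3) ℝ) : M3)ᵀ =
          ((Emb.hom g⁻¹ : Matrix.SpecialLinearGroup (Fin 3) ℝ) : M3)ᵀ *
          ((Emb.hom h⁻¹ : Matrix.SpecialLinearGroup (Fin 3) ℝ) : M3)ᵀ
        rw [_root_.mul_inv_rev, map_mul, Matrix.SpecialLinearGroup.coe_mul,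
          Matrix.transpose_mul] }
  fin := fun R => by
    have h : {g : G3 | rA g ≤ R}.Finite := finite_rA_le R
    refine (h.preimage (Set.injOn_of_injective (f := fun g : G3 => g⁻¹) inv_injective)).subset ?_
    intro g hg
    change hs (((Emb.hom g⁻¹ : Matrix.SpecialLinearGroup (Fin 3) ℝ) : M3)ᵀ) ≤ R at hg
    rw [hs_transpose] at hg
    exact hg

lemma rm_dual (g : G3) : @rm G3 _ (dual G3) g = (rm g⁻¹)ᵀ := rfl

lemma rA_dual (g : G3) : @rA G3 _ (dual G3) g = rB g := by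
  change hs ((rm g⁻¹)ᵀ) = rB g
  rw [hs_transpose]; rfl

lemma rB_dual (g : G3) : @rB G3 _ (dual G3) g = rA g := by
  change hs ((rm g⁻¹⁻¹)ᵀ) = rA g
  rw [hs_transpose, inv_inv]; rfl

lemma NS_dual (g : G3) : @NS G3 _ (dual G3) g = NN g := by
  change (@rB G3 _ (dual G3) g)⁻¹ • (((rm g⁻¹⁻¹)ᵀ)ᵀ * (rm g⁻¹⁻¹)ᵀ) = NN g
  rw [rB_dual, inv_inv, Matrix.transpose_transpose]; rfl

lemma NN_dual (g : G3) : @NN G3 _ (dual G3) g = NS g := by
  change (@rA G3 _ (dual G3) g)⁻¹ • ((rm g⁻¹)ᵀ * ((rm g⁻¹)ᵀ)ᵀ) = NS g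
  rw [rA_dual, Matrix.transpose_transpose]; rfl

lemma G23_dual (g : G3) : @G23 G3 _ (dual G3) g = G12 g := by
  change @rB G3 _ (dual G3) g ^ 2 / @rA G3 _ (dual G3) g = G12 g
  rw [rA_dual, rB_dual]; rfl

lemma G12_dual (g : G3) : @G12 G3 _ (dual G3) g = G23 g := by
  change @rA G3 _ (dual G3) g ^ 2 / @rB G3 _ (dual G3) g = G23 g
  rw [rA_dual, rB_dual]; rfl

/-- Right invariance of `N`. -/
theorem hs_NN_sub_mul_le (g t : G3) :
    hs (NN g - NN (g * t)) ≤ 4 * (rA t * rB t) / G12 g := by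
  have := @hs_NS_sub_mul_le G3 _ (dual G3) g t
  rwa [NS_dual, NS_dual, rA_dual, rB_dual, G23_dual, mul_comm (rB t)] at this

/-- Left equivariance of `N*`. -/
theorem NS_mul (s g : G3) :
    NS (s * g) = (rB g / rB (s * g)) • ((rm s⁻¹)ᵀ * NS g * rm s⁻¹) := by
  have hB := rB_pos g
  have e : rm (s * g)⁻¹ = rm g⁻¹ * rm s⁻¹ := by rw [_root_.mul_inv_rev, rm_mul]
  rw [NS, NS, e, Matrix.transpose_mul, Matrix.mul_smul, Matrix.smul_mul, smul_smul]
  have h1 : rB g / rB (s * g) * (rB g)⁻¹ = (rB (s * g))⁻¹ := by field_simp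
  rw [h1]
  simp only [Matrix.mul_assoc]

/-- Left equivariance of `N`. -/
theorem NN_mul (s g : G3) :
    NN (s * g) = (rA g / rA (s * g)) • (rm s * NN g * (rm s)ᵀ) := by
  have hA := rA_pos g
  rw [NN, NN, rm_mul, Matrix.transpose_mul, Matrix.mul_smul, Matrix.smul_mul, smul_smul]
  have h1 : rA g / rA (s * g) * (rA g)⁻¹ = (rA (s * g))⁻¹ := by field_simp
  rw [h1]
  simp only [Matrix.mul_assoc]

end Vale.Agent.P092.L.H132
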